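import Vale.Agent.Lib.P314.Defs

/-!
# An identity of `d × d` matrices computed by a small noncommutative formula

For two variables `x, y` the polynomial
`∑ σ ∈ S_{d+1}, sign σ • (x^{σ 0} y) (x^{σ 1} y) ⋯ (x^{σ d} y)`
is nonzero in the free algebra, vanishes on all tuples of `k × k` matrices with `k ≤ d`
(Cayley–Hamilton plus the vanishing of alternating maps on dependent families), and is
computed by a formula of size at most `(d+4)!`.
-/

namespace Vale.Agent.Lib.P314

open NCFormula

section formulas

variable {F : Type} {n : ℕ}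

/-- The formula `x^k` (with `x^0 = 1`). -/
def pw [One F] (x : NCFormula F n) : ℕ → NCFormula F n
  | 0 => const 1
  | (k + 1) => mul (pw x k) x

/-- Ordered product of a list of formulas. -/
def prodF [One F] : List (NCFormula F n) → NCFormula F n
  | [] => const 1
  | a :: l => mul a (prodF l)

/-- Sum of a list of formulas. -/
def sumF [Zero F] : List (NCFormula F n) → NCFormula F n
  | [] => const 0
  | a :: l => add a (sumF l)

lemma size_pw [One F] (x : NCFormula F n) (hx : x.size = 1) (k : ℕ) :
    (pw x k).size = 2 * k + 1 := by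
  induction k with
  | zero => rfl
  | succ k ih => simp only [pw, size, ih, hx]; ring

lemma size_prodF [One F] (l : List (NCFormula F n)) :
    (prodF l).size = (l.map size).sum + l.length + 1 := by
  induction l with
  | nil => rfl
  | cons a l ih => simp only [prodF, size, ih, List.map_cons, List.sum_cons, List.length_cons]; ring

lemma size_sumF [Zero F] (l : List (NCFormula F n)) :
    (sumF l).size = (l.map size).sum + l.length + 1 := by
  induction l with
  | nil => rfl
  | cons a l ih => simp only [sumF, size, ih, List.map_cons, List.sum_cons, List.length_cons]; ring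

variable [Field F]

lemma eval_pw (x : NCFormula F n) (k : ℕ) : (pw x k).eval = x.eval ^ k := by
  induction k with
  | zero => simp [pw, eval]
  | succ k ih => simp [pw, eval, ih, pow_succ]

lemma eval_prodF (l : List (NCFormula F n)) : (prodF l).eval = (l.map eval).prod := by
  induction l with
  | nil => simp [prodF, eval]
  | cons a l ih => simp [prodF, eval, ih]

lemma eval_sumF (l : List (NCFormula F n)) : (sumF l).eval = (l.map eval).sum := by
  induction l with
  | nil => simp [sumF, eval]
  | cons a l ih => simp [sumF, eval, ih]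

/-- The block `x^a y`. -/
def blk (x y : NCFormula F n) (a : ℕ) : NCFormula F n := mul (pw x a) y

/-- The formula `(x^{σ 0} y) (x^{σ 1} y) ⋯ (x^{σ d} y)`. -/
def chain (x y : NCFormula F n) (d : ℕ) (σ : Equiv.Perm (Fin (d + 1))) : NCFormula F n :=
  prodF (List.ofFn fun i : Fin (d + 1) => blk x y (σ i))

/-- The signed term attached to a permutation. -/
def term (x y : NCFormula F n) (d : ℕ) (σ : Equiv.Perm (Fin (d + 1))) : NCFormula F n :=
  mul (const (((Equiv.Perm.sign σ : ℤˣ) : ℤ) : F)) (chain x y d σ)

/-- The formula computing `∑ σ, sign σ • (x^{σ 0} y) ⋯ (x^{σ d} y)`. -/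
noncomputable def capelli (x y : NCFormula F n) (d : ℕ) : NCFormula F n :=
  sumF ((Finset.univ : Finset (Equiv.Perm (Fin (d + 1)))).toList.map (term x y d))

/-- The value `∑ σ, sign σ • (X^{σ 0} Y) ⋯ (X^{σ d} Y)` in an arbitrary ring. -/
noncomputable def capVal {A : Type*} [Ring A] (X Y : A) (d : ℕ) : A :=
  ∑ σ : Equiv.Perm (Fin (d + 1)),
    Equiv.Perm.sign σ • (List.ofFn fun i : Fin (d + 1) => X ^ ((σ i : Fin (d + 1)) : ℕ) * Y).prod

lemma map_capVal {A B : Type*} [Ring A] [Ring B] (g : A →+* B) (X Y : A) (d : ℕ) :
    g (capVal X Y d) = capVal (g X) (g Y) d := by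
  simp only [capVal, map_sum]
  refine Finset.sum_congr rfl fun σ _ => ?_
  rw [Units.smul_def, Units.smul_def, map_zsmul, map_list_prod, List.map_ofFn]
  simp [Function.comp_def]

lemma size_term_le (x y : NCFormula F n) (hx : x.size = 1) (hy : y.size = 1) (d : ℕ)
    (σ : Equiv.Perm (Fin (d + 1))) : (term x y d σ).size ≤ 2 * (d + 1) * (d + 2) + 3 := by
  have h1 : ∀ i : Fin (d + 1), (blk x y (σ i)).size ≤ 2 * d + 3 := by
    intro i
    have : ((σ i : Fin (d + 1)) : ℕ) ≤ d := by omega
    simp only [blk, size, size_pw x hx, hy]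
    omega
  have h2 : ((List.ofFn fun i : Fin (d + 1) => blk x y (σ i)).map size).sum
      ≤ (d + 1) * (2 * d + 3) := by
    have := List.sum_le_card_nsmul ((List.ofFn fun i : Fin (d + 1) => blk x y (σ i)).map size)
      (2 * d + 3) (by
        intro a ha
        simp only [List.map_ofFn, List.mem_ofFn] at ha
        obtain ⟨i, rfl⟩ := ha
        exact h1 i)
    simpa using this
  simp only [term, chain, size, size_prodF, List.length_ofFn]
  nlinarith

lemma size_capelli_le (x y : NCFormula F n) (hx : x.size = 1) (hy : y.size = 1) (d : ℕ) :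
    (capelli x y d).size ≤ (d + 4).factorial := by
  have hlen : ((Finset.univ : Finset (Equiv.Perm (Fin (d + 1)))).toList).length
      = (d + 1).factorial := by
    rw [Finset.length_toList, Finset.card_univ, Fintype.card_perm, Fintype.card_fin]
  have h2 : (((Finset.univ : Finset (Equiv.Perm (Fin (d + 1)))).toList.map (term x y d)).map
      size).sum ≤ (d + 1).factorial * (2 * (d + 1) * (d + 2) + 3) := by
    have := List.sum_le_card_nsmul
      (((Finset.univ : Finset (Equiv.Perm (Fin (d + 1)))).toList.map (term x y d)).map size)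
      (2 * (d + 1) * (d + 2) + 3) (by
        intro a ha
        simp only [List.map_map, List.mem_map] at ha
        obtain ⟨σ, -, rfl⟩ := ha
        exact size_term_le x y hx hy d σ)
    simpa [hlen] using this
  have h3 : (d + 4).factorial = (d + 4) * ((d + 3) * ((d + 2) * (d + 1).factorial)) := by
    simp [Nat.factorial_succ]
  have h4 : 1 ≤ (d + 1).factorial := Nat.factorial_pos _
  simp only [capelli, size_sumF, List.length_map, hlen]
  rw [h3]
  nlinarith [Nat.zero_le d, Nat.zero_le (d * d), Nat.zero_le (d * d * d),
    Nat.zero_le ((d + 1).factorial * d), Nat.zero_le ((d + 1).factorial * (d * d)),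
    Nat.zero_le ((d + 1).factorial * (d * d * d))]

lemma eval_capelli (x y : NCFormula F n) (d : ℕ) :
    (capelli x y d).eval = capVal x.eval y.eval d := by
  simp only [capelli, eval_sumF, List.map_map, capVal]
  rw [Finset.sum_map_toList]
  refine Finset.sum_congr rfl fun σ _ => ?_
  simp only [Function.comp_apply, term, chain, eval, eval_prodF, List.map_ofFn, blk]
  rw [Units.smul_def, zsmul_eq_mul, map_intCast]
  congr 3
  funext i
  simp [eval, eval_pw]

end formulas

section vanish

variable {F : Type} [Field F]

lemma not_linearIndependent_pow {k d : ℕ} (hk : k ≤ d) (X : Matrix (Fin k) (Fin k) F) :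
    ¬ LinearIndependent F (fun i : Fin (d + 1) => X ^ (i : ℕ)) := by
  intro h
  rw [Fintype.linearIndependent_iff] at h
  have hdim : X.charpoly.natDegree = k := by
    rw [Matrix.charpoly_natDegree_eq_dim]; simp
  have h0 := h (fun i => X.charpoly.coeff i) (by
    have hdeg : X.charpoly.natDegree < d + 1 := by omega
    have h2 := Polynomial.aeval_eq_sum_range' hdeg X
    rw [Matrix.aeval_self_charpoly] at h2
    rw [Fin.sum_univ_eq_sum_range (fun i => X.charpoly.coeff i • X ^ i) (d + 1)]
    exact h2.symm)
  have h1 := h0 ⟨k, by omega⟩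
  have h3 : X.charpoly.coeff k = 1 := by
    have h4 := Matrix.charpoly_monic X
    rw [Polynomial.Monic, Polynomial.leadingCoeff, hdim] at h4
    exact h4
  simp [h3] at h1

lemma capVal_matrix_eq_zero {k d : ℕ} (hk : k ≤ d) (X Y : Matrix (Fin k) (Fin k) F) :
    capVal X Y d = 0 := by
  let Φ : MultilinearMap F (fun _ : Fin (d + 1) => Matrix (Fin k) (Fin k) F)
      (Matrix (Fin k) (Fin k) F) :=
    (MultilinearMap.mkPiAlgebraFin F (d + 1) (Matrix (Fin k) (Fin k) F)).compLinearMap
      (fun _ => LinearMap.mulRight F Y)
  have h := AlternatingMap.map_linearDependent (MultilinearMap.alternatization Φ)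
    (fun i : Fin (d + 1) => X ^ (i : ℕ)) (not_linearIndependent_pow hk X)
  rw [MultilinearMap.alternatization_apply] at h
  rw [← h]
  simp only [capVal]
  refine Finset.sum_congr rfl fun σ _ => ?_
  simp [Φ]

end vanish

section nonvanish

variable {α : Type*} [DecidableEq α]

/-- Run lengths: the list of the numbers of letters between consecutive occurrences of `y`. -/
def runs (y : α) : List α → ℕ → List ℕ
  | [], _ => []
  | h :: t, c => if h = y then c :: runs y t 0 else runs y t (c + 1)

/-- The word `x^{a_0} y x^{a_1} y ⋯` attached to a list of exponents. -/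
def wordL (x y : α) : List ℕ → List α
  | [] => []
  | k :: l => List.replicate k x ++ y :: wordL x y l

lemma runs_replicate (x y : α) (hxy : x ≠ y) (k c : ℕ) (L : List α) :
    runs y (List.replicate k x ++ y :: L) c = (c + k) :: runs y L 0 := by
  induction k generalizing c with
  | zero => simp [runs]
  | succ k ih =>
    simp only [List.replicate_succ, List.cons_append, runs, if_neg hxy, ih]
    congr 1
    omega

lemma runs_wordL (x y : α) (hxy : x ≠ y) (l : List ℕ) : runs y (wordL x y l) 0 = l := by
  induction l with
  | nil => rfl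
  | cons k l ih => simp [wordL, runs_replicate x y hxy, ih]

lemma wordL_injective (x y : α) (hxy : x ≠ y) : Function.Injective (wordL x y) := by
  intro l l' h
  have := congrArg (fun w => runs y w 0) h
  simpa [runs_wordL x y hxy] using this

omit [DecidableEq α] in
lemma of_pow_eq_ofList_replicate (x : α) (k : ℕ) :
    FreeMonoid.of x ^ k = FreeMonoid.ofList (List.replicate k x) := by
  induction k with
  | zero => rfl
  | succ k ih => rw [pow_succ', ih, List.replicate_succ, FreeMonoid.ofList_cons]

omit [DecidableEq α] in
lemma prod_eq_ofList_wordL (x y : α) (l : List ℕ) :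
    (l.map fun k => FreeMonoid.of x ^ k * FreeMonoid.of y).prod
      = FreeMonoid.ofList (wordL x y l) := by
  induction l with
  | nil => rfl
  | cons k l ih =>
    simp only [List.map_cons, List.prod_cons, ih, wordL]
    rw [FreeMonoid.ofList_append, FreeMonoid.ofList_cons, of_pow_eq_ofList_replicate, mul_assoc]

end nonvanish

section free

variable {F : Type} [Field F] {n : ℕ}

lemma capVal_free_ne_zero (i j : Fin n) (hij : i ≠ j) (d : ℕ) :
    capVal (FreeAlgebra.ι F i) (FreeAlgebra.ι F j) d ≠ 0 := by
  intro h
  let g : FreeAlgebra F (Fin n) →+* MonoidAlgebra F (FreeMonoid (Fin n)) :=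
    (FreeAlgebra.equivMonoidAlgebraFreeMonoid (R := F) (X := Fin n)).toRingEquiv.toRingHom
  have hg : ∀ a : Fin n, g (FreeAlgebra.ι F a)
      = MonoidAlgebra.of F (FreeMonoid (Fin n)) (FreeMonoid.of a) := by
    intro a
    simp [g, FreeAlgebra.equivMonoidAlgebraFreeMonoid]
  have h2 := congrArg g h
  rw [map_capVal, hg, hg, map_zero] at h2
  let w : Equiv.Perm (Fin (d + 1)) → FreeMonoid (Fin n) := fun σ =>
    FreeMonoid.ofList (wordL i j (List.ofFn fun a : Fin (d + 1) => ((σ a : Fin (d + 1)) : ℕ)))
  have hw : Function.Injective w := by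
    intro σ τ hst
    have h3 := wordL_injective i j hij (FreeMonoid.ofList.injective hst)
    have h4 := List.ofFn_injective h3
    ext a
    exact congrFun h4 a
  have h5 : ∀ σ : Equiv.Perm (Fin (d + 1)),
      (List.ofFn fun a : Fin (d + 1) =>
        (MonoidAlgebra.of F (FreeMonoid (Fin n)) (FreeMonoid.of i)) ^ ((σ a : Fin (d + 1)) : ℕ)
          * MonoidAlgebra.of F (FreeMonoid (Fin n)) (FreeMonoid.of j)).prod
        = MonoidAlgebra.single (w σ) (1 : F) := by
    intro σ
    rw [← MonoidAlgebra.of_apply]
    simp only [w]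
    rw [← prod_eq_ofList_wordL, map_list_prod, List.map_map, List.map_ofFn]
    congr 2
    funext a
    simp
  have h6 := congrArg (fun p => p.coeff (w 1)) h2
  simp only [capVal, h5, MonoidAlgebra.coeff_sum, MonoidAlgebra.coeff_zero,
    Finsupp.coe_zero, Pi.zero_apply] at h6
  rw [Finsupp.finsetSum_apply] at h6
  rw [Finset.sum_eq_single (1 : Equiv.Perm (Fin (d + 1)))] at h6
  · simp at h6
  · intro σ _ hσ
    classical
    rw [Units.smul_def, MonoidAlgebra.coeff_smul_apply, MonoidAlgebra.coeff_single,
      Finsupp.single_apply, if_neg (fun hh => hσ (hw hh)), smul_zero]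
  · intro hh
    exact absurd (Finset.mem_univ _) hh

end free

/-- The key statement: for `2 ≤ n` there is a noncommutative formula of size at most `(d+4)!`
computing a nonzero polynomial that vanishes on all tuples of `k × k` matrices, `k ≤ d`. -/
theorem exists_small_identity {F : Type} [Field F] (n d : ℕ) (hn : 2 ≤ n) :
    ∃ φ : NCFormula F n, φ.size ≤ (d + 4).factorial ∧ φ.eval ≠ 0 ∧
      ∀ T : MatPoint F n, T.1 ≤ d → matEval φ.eval T = 0 := by
  let x : NCFormula F n := NCFormula.var ⟨0, by omega⟩
  let y : NCFormula F n := NCFormula.var ⟨1, by omega⟩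
  refine ⟨capelli x y d, size_capelli_le x y rfl rfl d, ?_, ?_⟩
  · rw [eval_capelli]
    exact capVal_free_ne_zero _ _ (by simp [Fin.ext_iff]) d
  · intro T hT
    rw [eval_capelli, matEval]
    have := map_capVal (FreeAlgebra.lift F T.2 : FreeAlgebra F (Fin n) →ₐ[F] _).toRingHom
      x.eval y.eval d
    simp only [AlgHom.toRingHom_eq_coe, RingHom.coe_coe] at this
    rw [this]
    exact capVal_matrix_eq_zero hT _ _

end Vale.Agent.Lib.P314
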