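import Mathlib

/-!
# Noncommutative formulas, matrix evaluation and hitting sets (P314)

Basic definitions, following the problem text:

* `NCFormula F n` : noncommutative formulas over `F` in the variables `x_0, ..., x_{n-1}`
  (rooted binary trees, leaves are variables or scalars, internal vertices are
  addition or multiplication gates with ordered inputs);
* `NCFormula.size` : the total number of vertices, leaves included;
* `NCFormula.eval` : the polynomial computed, an element of the free algebra
  `FreeAlgebra F (Fin n)`;
* `MatPoint F n` : a pair `(d, T)` with `T` an `n`-tuple of `d × d` matrices over `F`;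
* `matEval f T` : the ordered matrix evaluation `f(T)`;
* `IsHittingSet n s H` : `H` is a finite set of matrix tuples such that every formula of
  size at most `s` computing a nonzero polynomial has a nonzero evaluation on some
  member of `H`.
-/

namespace Vale.Agent.Lib.P314

/-- Noncommutative formulas over `F` in `n` variables. -/
inductive NCFormula (F : Type) (n : ℕ) : Type
  | var : Fin n → NCFormula F n
  | const : F → NCFormula F n
  | add : NCFormula F n → NCFormula F n → NCFormula F n
  | mul : NCFormula F n → NCFormula F n → NCFormula F n

namespace NCFormula

variable {F : Type} {n : ℕ}

/-- The size of a formula: the total number of vertices of the tree, leaves included. -/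
def size : NCFormula F n → ℕ
  | var _ => 1
  | const _ => 1
  | add a b => a.size + b.size + 1
  | mul a b => a.size + b.size + 1

/-- The noncommutative polynomial computed by a formula, in the free associative algebra. -/
noncomputable def eval [CommSemiring F] : NCFormula F n → FreeAlgebra F (Fin n)
  | var i => FreeAlgebra.ι F i
  | const a => algebraMap F (FreeAlgebra F (Fin n)) a
  | add a b => a.eval + b.eval
  | mul a b => a.eval * b.eval

end NCFormula

/-- A matrix point: a dimension `d` together with an `n`-tuple of `d × d` matrices over `F`. -/
abbrev MatPoint (F : Type) (n : ℕ) : Type :=
  (d : ℕ) × (Fin n → Matrix (Fin d) (Fin d) F)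

/-- The ordered matrix evaluation `f(T)` of a noncommutative polynomial `f` at a matrix
tuple `T`; a scalar `a` acts as `a • 1`. -/
noncomputable def matEval {F : Type} [Field F] {n : ℕ} (f : FreeAlgebra F (Fin n))
    (T : MatPoint F n) : Matrix (Fin T.1) (Fin T.1) F :=
  FreeAlgebra.lift F T.2 f

/-- `H` is a hitting set for the polynomials computed by noncommutative formulas of size at
most `s` in `n` variables over `F`: it is finite, and every such polynomial that is nonzero
has a nonzero matrix evaluation at some member of `H`. -/
def IsHittingSet {F : Type} [Field F] (n s : ℕ) (H : Set (MatPoint F n)) : Prop :=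
  H.Finite ∧ ∀ φ : NCFormula F n, φ.size ≤ s → φ.eval ≠ 0 → ∃ T ∈ H, matEval φ.eval T ≠ 0

end Vale.Agent.Lib.P314
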