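import Vale.Agent.Lib.P314.Defs

/-!
# Simultaneously triangularizable matrix tuples (P314)
-/

namespace Vale.Agent.Lib.P314

/-- A tuple of square matrices is simultaneously triangularizable (over the base field):
some invertible matrix `P` (with inverse `Q`) conjugates all members to upper triangular
matrices, i.e. matrices whose entries below the diagonal vanish. -/
def IsTriangularizable {F : Type} [Field F] {n : ℕ} (T : MatPoint F n) : Prop :=
  ∃ P Q : Matrix (Fin T.1) (Fin T.1) F, P * Q = 1 ∧ Q * P = 1 ∧
    ∀ i : Fin n, ∀ a b : Fin T.1, b < a → (P * T.2 i * Q) a b = 0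

end Vale.Agent.Lib.P314
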