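import Vale.Agent.Lib.P314.Capelli
import Vale.Agent.Lib.P314.Triangular

/-!
# Pruning hitting sets: low-dimensional and small triangularizable tuples are useless

If `P` is a nonzero polynomial with a small formula vanishing on a family of matrix tuples,
then for any formula `φ` the product `φ * P` is nonzero whenever `φ` is, and can only be hit
outside that family.  We use the identity of `d × d` matrices from `Capelli.lean` and the
power `(x y - y x)^m`, which vanishes on simultaneously triangularizable tuples of dimension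
at most `m`.
-/

namespace Vale.Agent.Lib.P314

open NCFormula

section tri

variable {F : Type} [Field F]

/-- `M` vanishes at all entries `(i, j)` with `j < i + k`. -/
def IsUT {d : ℕ} (k : ℕ) (M : Matrix (Fin d) (Fin d) F) : Prop :=
  ∀ i j : Fin d, (j : ℕ) < (i : ℕ) + k → M i j = 0

lemma IsUT.mul {d a b : ℕ} {A B : Matrix (Fin d) (Fin d) F} (hA : IsUT a A) (hB : IsUT b B) :
    IsUT (a + b) (A * B) := by
  intro i j hij
  rw [Matrix.mul_apply]
  refine Finset.sum_eq_zero fun l _ => ?_
  by_cases hl : (l : ℕ) < (i : ℕ) + a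
  · rw [hA i l hl, zero_mul]
  · rw [hB l j (by omega), mul_zero]

lemma IsUT.pow {d : ℕ} {A : Matrix (Fin d) (Fin d) F} (hA : IsUT 1 A) (m : ℕ) :
    IsUT m (A ^ m) := by
  induction m with
  | zero =>
    intro i j hij
    have : i ≠ j := by
      intro h; rw [h] at hij; omega
    simp [Matrix.one_apply_ne this]
  | succ m ih =>
    rw [pow_succ]
    exact ih.mul hA

lemma IsUT.eq_zero {d k : ℕ} {A : Matrix (Fin d) (Fin d) F} (hA : IsUT k A) (hk : d ≤ k) :
    A = 0 := by
  ext i j
  exact hA i j (by have := j.2; omega)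

lemma isUT_comm {d : ℕ} {A B : Matrix (Fin d) (Fin d) F} (hA : IsUT 0 A) (hB : IsUT 0 B) :
    IsUT 1 (A * B - B * A) := by
  intro i j hij
  rcases Nat.lt_or_ge (j : ℕ) (i : ℕ) with h | h
  · have h1 := hA.mul hB i j (by omega)
    have h2 := hB.mul hA i j (by omega)
    rw [Matrix.sub_apply, h1, h2, sub_zero]
  · have hji : j = i := Fin.ext (by omega)
    subst hji
    rw [Matrix.sub_apply, Matrix.mul_apply, Matrix.mul_apply, sub_eq_zero]
    refine Finset.sum_congr rfl fun l _ => ?_
    rcases lt_trichotomy (l : ℕ) (j : ℕ) with h1 | h1 | h1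
    · rw [hA j l (by omega), hB j l (by omega), zero_mul, zero_mul]
    · have : l = j := Fin.ext h1
      subst this
      exact mul_comm _ _
    · rw [hA l j (by omega), hB l j (by omega), mul_zero, mul_zero]

/-- On a simultaneously triangularizable tuple of dimension at most `m`, the `m`-th power of
any commutator of two members vanishes. -/
lemma comm_pow_eq_zero_of_triangularizable {n : ℕ} (T : MatPoint F n)
    (hT : IsTriangularizable T) (i j : Fin n) (m : ℕ) (hm : T.1 ≤ m) :
    (T.2 i * T.2 j - T.2 j * T.2 i) ^ m = 0 := by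
  obtain ⟨P, Q, hPQ, hQP, hut⟩ := hT
  have hA : IsUT 0 (P * T.2 i * Q) := fun a b hab => hut i a b (by simpa using hab)
  have hB : IsUT 0 (P * T.2 j * Q) := fun a b hab => hut j a b (by simpa using hab)
  have hC := ((isUT_comm hA hB).pow m).eq_zero hm
  have hconj : (P * T.2 i * Q) * (P * T.2 j * Q) - (P * T.2 j * Q) * (P * T.2 i * Q)
      = P * (T.2 i * T.2 j - T.2 j * T.2 i) * Q := by
    have e1 : (P * T.2 i * Q) * (P * T.2 j * Q) = P * (T.2 i * T.2 j) * Q := by
      calc (P * T.2 i * Q) * (P * T.2 j * Q) = P * T.2 i * (Q * P) * T.2 j * Q := by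
            simp only [mul_assoc]
        _ = P * (T.2 i * T.2 j) * Q := by rw [hQP]; simp only [mul_assoc, mul_one]
    have e2 : (P * T.2 j * Q) * (P * T.2 i * Q) = P * (T.2 j * T.2 i) * Q := by
      calc (P * T.2 j * Q) * (P * T.2 i * Q) = P * T.2 j * (Q * P) * T.2 i * Q := by
            simp only [mul_assoc]
        _ = P * (T.2 j * T.2 i) * Q := by rw [hQP]; simp only [mul_assoc, mul_one]
    rw [e1, e2, mul_sub, sub_mul]
  have hpow : ∀ (C : Matrix (Fin T.1) (Fin T.1) F) (k : ℕ), (P * C * Q) ^ k = P * C ^ k * Q := by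
    intro C k
    induction k with
    | zero => simp [hPQ]
    | succ k ih =>
      rw [pow_succ, ih, pow_succ]
      calc P * C ^ k * Q * (P * C * Q) = P * C ^ k * (Q * P) * C * Q := by
            simp only [mul_assoc]
        _ = P * (C ^ k * C) * Q := by rw [hQP]; simp only [mul_assoc, mul_one]
  rw [hconj, hpow] at hC
  have := congrArg (fun M => Q * M * P) hC
  simp only [mul_zero, zero_mul] at this
  calc (T.2 i * T.2 j - T.2 j * T.2 i) ^ m
      = (Q * P) * (T.2 i * T.2 j - T.2 j * T.2 i) ^ m * (Q * P) := by rw [hQP]; simp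
    _ = Q * (P * (T.2 i * T.2 j - T.2 j * T.2 i) ^ m * Q) * P := by simp only [mul_assoc]
    _ = 0 := this

end tri

section commutator

variable {F : Type} [Field F] {n : ℕ}

/-- The formula `x y + (-1) (y x)`. -/
def commF (x y : NCFormula F n) : NCFormula F n :=
  add (mul x y) (mul (const (-1)) (mul y x))

lemma size_commF (x y : NCFormula F n) (hx : x.size = 1) (hy : y.size = 1) :
    (commF x y).size = 9 := by
  simp [commF, size, hx, hy]

lemma eval_commF (x y : NCFormula F n) :
    (commF x y).eval = x.eval * y.eval - y.eval * x.eval := by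
  simp [commF, eval, sub_eq_add_neg]

lemma size_pw_gen (c : NCFormula F n) (k : ℕ) : (pw c k).size = (c.size + 1) * k + 1 := by
  induction k with
  | zero => rfl
  | succ k ih => simp only [pw, size, ih]; ring

lemma comm_ι_ne_zero (i j : Fin n) (hij : i ≠ j) :
    FreeAlgebra.ι F i * FreeAlgebra.ι F j - FreeAlgebra.ι F j * FreeAlgebra.ι F i ≠ 0 := by
  intro h
  let g : FreeAlgebra F (Fin n) →+* MonoidAlgebra F (FreeMonoid (Fin n)) :=
    (FreeAlgebra.equivMonoidAlgebraFreeMonoid (R := F) (X := Fin n)).toRingEquiv.toRingHom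
  have hg : ∀ a : Fin n, g (FreeAlgebra.ι F a)
      = MonoidAlgebra.of F (FreeMonoid (Fin n)) (FreeMonoid.of a) := by
    intro a
    simp [g, FreeAlgebra.equivMonoidAlgebraFreeMonoid]
  have h2 := congrArg g h
  rw [map_sub, map_mul, map_mul, hg, hg, map_zero, ← map_mul, ← map_mul, sub_eq_zero] at h2
  have h3 := MonoidAlgebra.of_injective h2
  have h4 := congrArg FreeMonoid.toList h3
  simp only [FreeMonoid.toList_mul, FreeMonoid.toList_of, List.singleton_append, List.cons.injEq,
    and_true] at h4
  exact hij h4.1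

end commutator

/-- Pruning: a hitting set for size `s + (d+4)! + 10 m + 3` remains a hitting set for size `s`
after deleting every tuple of dimension at most `d` and every simultaneously triangularizable
tuple of dimension at most `m`. -/
theorem prune_hitting_set {F : Type} [Field F] (n s d m : ℕ) (hn : 2 ≤ n)
    (H : Set (MatPoint F n))
    (hH : IsHittingSet n (s + (d + 4).factorial + 10 * m + 3) H) :
    IsHittingSet n s {T ∈ H | d < T.1 ∧ (m < T.1 ∨ ¬ IsTriangularizable T)} := by
  refine ⟨hH.1.subset (fun T hT => hT.1), ?_⟩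
  intro φ hφ hne
  let x : NCFormula F n := NCFormula.var ⟨0, by omega⟩
  let y : NCFormula F n := NCFormula.var ⟨1, by omega⟩
  have hxy : (⟨0, by omega⟩ : Fin n) ≠ ⟨1, by omega⟩ := by simp [Fin.ext_iff]
  let Φ : NCFormula F n := mul (mul φ (capelli x y d)) (pw (commF x y) m)
  have hsize : Φ.size ≤ s + (d + 4).factorial + 10 * m + 3 := by
    have h1 := size_capelli_le x y rfl rfl d
    have h2 : (pw (commF x y) m).size = 10 * m + 1 := by
      rw [size_pw_gen, size_commF x y rfl rfl]
    simp only [Φ, size, h2]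
    omega
  have heval : Φ.eval = φ.eval * capVal x.eval y.eval d
      * (x.eval * y.eval - y.eval * x.eval) ^ m := by
    simp only [Φ, eval, eval_capelli, eval_pw, eval_commF]
  have hΦne : Φ.eval ≠ 0 := by
    rw [heval]
    refine mul_ne_zero (mul_ne_zero hne (capVal_free_ne_zero _ _ hxy d)) (pow_ne_zero _ ?_)
    exact comm_ι_ne_zero _ _ hxy
  obtain ⟨T, hT, hTne⟩ := hH.2 Φ hsize hΦne
  have hmat : matEval Φ.eval T = matEval φ.eval T
      * capVal (T.2 ⟨0, by omega⟩) (T.2 ⟨1, by omega⟩) d
      * (T.2 ⟨0, by omega⟩ * T.2 ⟨1, by omega⟩ - T.2 ⟨1, by omega⟩ * T.2 ⟨0, by omega⟩) ^ m := by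
    rw [heval]
    simp only [matEval, map_mul, map_pow, map_sub]
    have := map_capVal (FreeAlgebra.lift F T.2 : FreeAlgebra F (Fin n) →ₐ[F] _).toRingHom
      x.eval y.eval d
    simp only [AlgHom.toRingHom_eq_coe, RingHom.coe_coe] at this
    rw [this]
    simp [x, y, eval]
  rw [hmat] at hTne
  refine ⟨T, ⟨hT, ?_, ?_⟩, ?_⟩
  · by_contra hle
    rw [capVal_matrix_eq_zero (by omega)] at hTne
    simp at hTne
  · by_contra hcon
    have hc := not_or.mp hcon
    rw [comm_pow_eq_zero_of_triangularizable T (not_not.mp hc.2) _ _ m (not_lt.mp hc.1)] at hTne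
    simp at hTne
  · intro h0
    rw [h0] at hTne
    simp at hTne

end Vale.Agent.Lib.P314
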